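import Mathlib

set_option linter.all false

/-! Full Moebius ladders in dense graphs: letters. -/

namespace Vale.Agent.P050.H956

open Matrix

variable {V : Type} [Fintype V] [DecidableEq V]

/-- step matrix on pairs of vertices -/
def NN (A : Matrix V V ℝ) : Matrix (V × V) (V × V) ℝ :=
  fun e f => A e.1 e.2 * A e.1 f.2 * A f.1 e.2 * A f.1 f.2

/-- symmetric, entries 0 or 1 -/
def Adj (A : Matrix V V ℝ) : Prop :=
  (∀ x y, A x y = A y x) ∧ ∀ x y, A x y = 0 ∨ A x y = 1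

def EE (A : Matrix V V ℝ) : ℝ := ∑ x, ∑ y, A x y

def CC (A : Matrix V V ℝ) : ℝ :=
  ∑ x, ∑ y, ∑ x', ∑ y', A x y * A x y' * A x' y * A x' y'

theorem nn_herm (A : Matrix V V ℝ) : (NN A).IsHermitian := by
  ext e f
  simp only [Matrix.conjTranspose_apply, NN, star_trivial]
  ring

/-- eigenvalues of the step matrix -/
noncomputable def lam (A : Matrix V V ℝ) : V × V → ℝ := (nn_herm A).eigenvalues

/-- R2: spectral facts -/
def TraceStmt : Prop := ∀ (V : Type) [Fintype V] [DecidableEq V] (A : Matrix V V ℝ) (k : ℕ),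
  ((NN A) ^ k).trace = ∑ i, lam A i ^ k

def SqStmt : Prop := ∀ (V : Type) [Fintype V] [DecidableEq V] (A : Matrix V V ℝ), Adj A →
  ∑ i, lam A i ^ 2 = CC A

/-- Rayleigh -/
def RayStmt : Prop := ∀ (V : Type) [Fintype V] [DecidableEq V] (A : Matrix V V ℝ) (L : ℝ),
  (∀ i, lam A i ≤ L) → ∀ g : V × V → ℝ, g ⬝ᵥ (NN A *ᵥ g) ≤ L * (g ⬝ᵥ g)

/-- C4, weighted form: `a` any nonnegative matrix -/
def C4Stmt : Prop := ∀ (V : Type) [Fintype V] [DecidableEq V] (a : V → V → ℝ),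
  (∀ x y, 0 ≤ a x y) →
  (∑ x, ∑ y, a x y) ^ 4 ≤ (Fintype.card V : ℝ) ^ 4 *
    ∑ x, ∑ y, ∑ x', ∑ y', a x y * a x y' * a x' y * a x' y'

/-- R3 -/
def FourStmt : Prop := ∀ (V : Type) [Fintype V] [DecidableEq V] [Nonempty V]
  (A : Matrix V V ℝ), Adj A →
  (∑ i, if lam A i < 0 then lam A i ^ 4 else 0) ≤
    CC A ^ 2 - (EE A / Fintype.card V) ^ 8

/-- R4: the gap -/
def GapStmt : Prop := ∀ (V : Type) [Fintype V] [DecidableEq V] [Nonempty V]
  (A : Matrix V V ℝ), Adj A → ∀ L : ℝ, (∀ i, lam A i ≤ L) → ∀ i, lam A i < 0 →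
  (- lam A i) ^ 6 / (4 * (Fintype.card V : ℝ) ^ 10) ≤ L + lam A i

/-- END -/
def EndStmt : Prop := ∀ (V : Type) [Fintype V] [DecidableEq V] [Nonempty V]
  (A : Matrix V V ℝ), Adj A → ∀ (k : ℕ) (p : ℝ), 0 < p →
  EE A = p * (Fintype.card V : ℝ) ^ 2 → 512 ≤ ((k : ℝ) - 2) * p ^ 18 →
  (p ^ 3 * (Fintype.card V : ℝ) ^ 2) ^ k ≤ ((NN A) ^ k).trace

end Vale.Agent.P050.H956
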